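import Vale.Agent.P281.H389.TGF.Gen
import Vale.Agent.P281.H603.TGF.Spec
import Vale.Agent.P281.H969.TGB.Loc
import Vale.Agent.P281.H180.TG.PowB

/-!
# P281, project T-GF (helper389), block F5: the form of `f`
-/

open Set Filter Metric MeasureTheory Vale.Agent.P281 Vale.Agent.P281.H713 Vale.Agent.P272.K
open Vale.Agent.P281.MF Vale.Agent.P281.ISO Vale.Agent.P281.H713.TZ
open Vale.Agent.P281.H64.TU (Tame KTame TameOK RelFormT HasFormsT)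
open Vale.Agent.P281.H64.Gen (IsSmallSet IsSmall2 IsAnalyticSet HartogsStmt)
open Vale.Agent.P281.H969.TG Vale.Agent.P281.H389.TG Vale.Agent.P281.H969.TL
open Vale.Agent.P281.H969.TGB (OffT ExtRStmt dense_fam)
open Vale.Agent.P281.H603.TGF (TraceFStmt DescFStmt)

open scoped Topology ContDiff Manifold ComplexConjugate ComplexOrder ENNReal NNReal

set_option linter.all false

noncomputable section

namespace Vale.Agent.P281.H389.TGF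

section Fam

variable {n : ℕ} {X : Type} [TopologicalSpace X] [ChartedSpace (Cm n) X]
  [IsManifold 𝓘(ℂ, Cm n) ω X]

/-- the union of finitely many prime divisors and of an analytic set -/
theorem fam_un {𝒢 : Set (Set X)} (hfin : 𝒢.Finite) (hp : ∀ D ∈ 𝒢, J.IsPrime (Cm n) D) {B : Set X}
    (hB : IsAnalyticSet (Cm n) B) (x : X) :
    ∃ (U : Set X) (ι : Type) (g : ι → X → ℂ), IsOpen U ∧ x ∈ U ∧
      (∀ i, ∀ z ∈ U, HolV (Cm n) (g i) z) ∧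
      ∀ z ∈ U, z ∈ B ∪ ⋃₀ 𝒢 ↔ ∀ i, g i z = 0 := by
  classical
  obtain ⟨U, ι, h, hU, hxU, hh, hhB⟩ := hB x
  have h1 : ∀ D, ∃ (g : X → ℂ) (V : Set X), D ∈ hfin.toFinset → IsOpen V ∧ x ∈ V ∧
      (∀ z ∈ V, HolV (Cm n) g z) ∧ ∀ z ∈ V, z ∈ D ↔ g z = 0 := by
    intro D
    by_cases hD : D ∈ hfin.toFinset
    · obtain ⟨g, V, hV, hxV, hgV, hDV, -⟩ := (hp D (by simpa using hD)).2.1 x
      exact ⟨g, V, fun _ => ⟨hV, hxV, hgV, hDV⟩⟩
    · exact ⟨fun _ => 0, ∅, fun h' => absurd h' hD⟩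
  choose g V hgV using h1
  refine ⟨U ∩ ⋂ D ∈ hfin.toFinset, V D, ι, fun i z => (∏ D ∈ hfin.toFinset, g D z) * h i z,
    hU.inter (isOpen_biInter_finset fun D hD => (hgV D hD).1),
    ⟨hxU, mem_iInter₂.2 fun D hD => (hgV D hD).2.1⟩, fun i z hz => ?_, fun z hz => ?_⟩
  · exact (HolV.prod fun D hD => (hgV D hD).2.2.1 z (mem_iInter₂.1 hz.2 D hD)).mul
      (hh i z hz.1)
  · constructor
    · rintro (hzB | ⟨D, hD, hzD⟩) i
      · show (∏ D ∈ hfin.toFinset, g D z) * h i z = 0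
        rw [(hhB z hz.1).1 hzB i, mul_zero]
      · have hD' : D ∈ hfin.toFinset := by simpa using hD
        have h2 : g D z = 0 := ((hgV D hD').2.2.2 z (mem_iInter₂.1 hz.2 D hD')).1 hzD
        show (∏ D ∈ hfin.toFinset, g D z) * h i z = 0
        rw [Finset.prod_eq_zero hD' h2, zero_mul]
    · intro h2
      by_cases h3 : ∏ D ∈ hfin.toFinset, g D z = 0
      · obtain ⟨D, hD, h4⟩ := Finset.prod_eq_zero_iff.1 h3
        exact Or.inr ⟨D, by simpa using hD,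
          ((hgV D hD).2.2.2 z (mem_iInter₂.1 hz.2 D hD)).2 h4⟩
      · refine Or.inl ((hhB z hz.1).2 fun i => ?_)
        exact (mul_eq_zero.1 (h2 i)).resolve_left h3

end Fam

/-- **F5** -/
theorem descF (hTr : TraceFStmt) (hExt : ExtRStmt) : DescFStmt := by
  intro p d m X₁ Y₁ X Y _ _ _ _ _ _ _ _ _ _ _ _ _ _ _ _ _ _ f₁ Δ₁ f Δ u v S₀ S S₁ B 𝒢 w₁
    e₀ 𝒟 hd hsq hf₁c hfc hfs hΔ₁ hΔ hScl hS₀ hvS hsub₁ hsub hc hc₁ hneG hneB hm hD hBdd hF y hy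
  classical
  have hf : ∀ x, HolM (Cm (p + d)) (Cm p) f x := fun x => hfc.contMDiffAt
  have hf₁ : ∀ x, HolM (Cm (p + d)) (Cm p) f₁ x := fun x => hf₁c.contMDiffAt
  have hu : ∀ x, HolM (Cm (p + d)) (Cm (p + d)) u x := fun x => hsq.holu.contMDiffAt
  have hv : ∀ y, HolM (Cm p) (Cm p) v y := fun y => hsq.holv.contMDiffAt
  have hBc : IsClosed B := hsq.small2.1
  have hKc : IsClosed (B ∪ ⋃₀ 𝒢) := by
    refine hBc.union ?_
    rw [sUnion_eq_biUnion]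
    exact hsq.fin.isClosed_biUnion fun D hD => (hsq.prime D hD).1
  have hK : ∀ x₁, f (u x₁) ∉ S → u x₁ ∉ B ∪ ⋃₀ 𝒢 →
      (dM (Cm (p + d)) (Cm (p + d)) u x₁).det ≠ 0 ∧ ∀ D, Δ₁ D ≠ 0 → x₁ ∉ D := by
    intro x₁ h1 h2
    exact ⟨det_ne_of_inj (hsq.et x₁ (fun h => h1 (hS₀ h)) h2), hsq.vert₁ x₁ fun h => h1 (hS₀ h)⟩
  -- a point over `y` off `B ∪ ⋃ 𝒢`
  obtain ⟨x₀, hx₀, hx₀B⟩ : ∃ x, f x = y ∧ x ∉ B := by
    by_contra h1
    push Not at h1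
    exact hneB y hy fun x hx => h1 x hx
  obtain ⟨xa, ⟨hxa1, hxa2⟩, hxaB⟩ : ∃ x, (f x = y ∧ ∀ D ∈ hsq.fin.toFinset, x ∉ D) ∧ x ∉ B :=
    ((dense_fib hf e₀ (fun x hx => hsub x (by rw [hx]; exact hy)) (hc y hy)
      (fun D hD => hsq.prime D (by simpa using hD))
      (fun D hD => hneG y hy D (by simpa using hD))
      hx₀).and_eventually (hBc.isOpen_compl.mem_nhds hx₀B)).exists
  obtain ⟨xb, rfl⟩ := hsq.surj xa
  set y₁ := f₁ xb with hy₁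
  have hvy₁ : v y₁ = y := by rw [hy₁, ← hsq.comm, hxa1]
  have hy₁S : y₁ ∉ S₁ := hvS y₁ (by rw [hvy₁]; exact hy)
  obtain ⟨N, 𝒜₁, κ₁, Θ, Ξ, hN, h𝒜₁, hΘ, hΞ, hκ₁, x₁, hfx₁, hΘne, hΞh, hind⟩ := hF y₁ hy₁S
  -- a good point over `y₁`
  set A : Set X₁ := u ⁻¹' (B ∪ ⋃₀ 𝒢) with hA
  have hAeq : ∀ x, f₁ x = y₁ → ∃ (U : Set X₁) (ι : Type) (g : ι → X₁ → ℂ), IsOpen U ∧ x ∈ U ∧
      (∀ i, ∀ z ∈ U, HolV (Cm (p + d)) (g i) z) ∧ ∀ z ∈ U, z ∈ A ↔ ∀ i, g i z = 0 := by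
    intro x _
    obtain ⟨U, ι, g, hU, hxU, hg, hgA⟩ := fam_un hsq.fin hsq.prime hsq.an (u x)
    exact ⟨u ⁻¹' U, ι, fun i z => g i (u z), hU.preimage hsq.holu.continuous, hxU,
      fun i z hz => HolV.comp (h := g i) (hg i _ hz) (hu z), fun z hz => hgA _ hz⟩
  have hAne : ¬ f₁ ⁻¹' {y₁} ⊆ A := by
    intro h1
    rcases h1 (show xb ∈ f₁ ⁻¹' {y₁} from rfl) with h2 | ⟨D, hD, h2⟩
    · exact hxaB h2
    · exact hxa2 D (by simpa using hD) h2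
  obtain ⟨xc, ⟨hxc1, hxc2⟩, hxc3⟩ := ((dense_fam hf₁ e₀
    (fun x hx => hsub₁ x (by rw [hx]; exact hy₁S)) (hc₁ y₁ hy₁S) hAeq hAne hfx₁).and_eventually
    hΘne).exists
  set x := u xc with hx
  have hfx : f x = y := by rw [hx, hsq.comm, hxc1, hvy₁]
  have hfxS : f x ∉ S := by rw [hfx]; exact hy
  have hxK : x ∉ B ∪ ⋃₀ 𝒢 := hxc2
  -- the sheets
  obtain ⟨m', s, V, hV, hxV, hs1, hs2, hs3⟩ := H349.TG.sheet (p + d) X₁ X u hsq.holu x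
    fun z hz => (H308.Bir.bij_of_det_ne (hK z (by rw [hz]; exact hfxS)
      (by rw [hz]; exact hxK)).1).1
  obtain ⟨j₀, hj₀⟩ := (hs3 x hxV xc rfl).1
  have hdu : (dM (Cm (p + d)) (Cm (p + d)) u xc).det ≠ 0 := (hK xc hfxS hxK).1
  have hdv : (dM (Cm p) (Cm p) v (f₁ xc)).det ≠ 0 :=
    det_ne_of_inj (hsq.etale _ fun h1 => hfxS (by rw [hx, hsq.comm]; exact hS₀ h1))
  have hne0 : trn (Cm (p + d)) (Cm p) u v f₁ N Θ (s j₀ x) ≠ 0 := by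
    rw [show s j₀ x = xc from hj₀]
    unfold trn
    exact mul_ne_zero hxc3 (pow_ne_zero _ (div_ne_zero hdv hdu))
  obtain ⟨k, hk, -, hsum⟩ := H180.TG.exists_pow
    (fun j => trn (Cm (p + d)) (Cm p) u v f₁ N Θ (s j x)) j₀ hne0
  have htr : tr (Cm (p + d)) (Cm p) u v f₁ N k Θ x ≠ 0 := by
    unfold tr
    rw [finsum_fib (fun j => s j x) (hs2 x hxV) ?_
      (fun w => trn (Cm (p + d)) (Cm p) u v f₁ N Θ w ^ k)]
    · exact hsum
    · ext w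
      constructor
      · intro hw
        exact (hs3 x hxV w hw).1
      · rintro ⟨j, rfl⟩
        exact (hs1 j x hxV).2
  have hRel := hTr p d N k m X₁ Y₁ X Y f₁ Δ₁ f Δ u v S₀ S S₁ B 𝒢 w₁ e₀ 𝒜₁ κ₁ Θ 𝒟 hd hk hsq
    hf₁c hfc hΔ₁ hΔ hScl hS₀ hvS hsub hc hneG hneB hm hD hBdd hΘ h𝒜₁ hκ₁
  obtain ⟨Θ', hΘ', hRel'⟩ := hExt (p + d) p X Y (Cm d) (UTame u w₁) f S e₀ (k * N) 𝒢 0
    (tr (Cm (p + d)) (Cm p) u v f₁ N k Θ) B hsq.small2 hfc hScl hsq.fin hsq.prime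
    (by simp) (fun D hD => absurd rfl hD) hRel
  refine ⟨k * N, 𝒢, 0, Θ', fun b => Fin.elim0 b, Nat.mul_pos hk hN, hsq.fin, hsq.prime, hRel',
    fun b => Fin.elim0 b, fun D => ?_, x, hfx, ?_, fun b => Fin.elim0 b,
    fun c _ b => Fin.elim0 b⟩
  · obtain ⟨q, hq, hq0, -⟩ := hΔ.2.2.1 D
    have h1 : (0 : ℝ) ≤ Δ D := by rw [hq]; exact_mod_cast hq0
    have h2 : (0 : ℝ) ≤ ((k * N : ℕ) : ℝ) * Δ D := mul_nonneg (Nat.cast_nonneg _) h1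
    simpa using h2
  · -- near `x`
    have hGG : HolV (Cm (p + d)) (GG (p + d) p u v f₁ f N k Θ x (f x) ∅ (fun _ _ => 1) 0) x :=
      GG_hol hu hv hf₁ hf hsq.comm hΘ h𝒜₁ hκ₁ hΔ₁ hScl hvS hKc hK hfxS hxK (mem_chart_source _ _)
        (mem_chart_source _ _) (fun D hD => absurd hD (Finset.notMem_empty D))
    have e1 : ∀ᶠ z in 𝓝 x, f z ∉ S :=
      (hf x).continuousAt.eventually (hScl.isOpen_compl.mem_nhds hfxS)
    have e2 : ∀ᶠ z in 𝓝 x, z ∉ B ∪ ⋃₀ 𝒢 := hKc.isOpen_compl.mem_nhds hxK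
    have e3 : ∀ᶠ z in 𝓝 x, z ∈ (chartAt (Cm (p + d)) x).source :=
      (chartAt (Cm (p + d)) x).open_source.mem_nhds (mem_chart_source _ _)
    have e4 : ∀ᶠ z in 𝓝 x, f z ∈ (chartAt (Cm p) (f x)).source :=
      (hf x).continuousAt.eventually ((chartAt (Cm p) (f x)).open_source.mem_nhds
        (mem_chart_source _ _))
    have hid : ∀ z, f z ∉ S → z ∉ B ∪ ⋃₀ 𝒢 → z ∈ (chartAt (Cm (p + d)) x).source →
        jac (Cm p) (chartAt (Cm p) (f x)) (f z) ^ (k * N) *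
          tr (Cm (p + d)) (Cm p) u v f₁ N k Θ z =
        GG (p + d) p u v f₁ f N k Θ x (f x) ∅ (fun _ _ => 1) 0 z *
          jac (Cm (p + d)) (chartAt (Cm (p + d)) x) z ^ (k * N) := by
      intro z a1 a2 a3
      have h1 := GG_id (n := p + d) (p := p) (v := v) (f₁ := f₁) (f := f) (N := N) (Θ₁ := Θ) (k := k) (κ := 0)
        (y₀ := f x) (T := ∅) (e := fun _ _ => 1) a3
        (Set.finite_of_encard_le_coe (hm z a1 a2))
      rw [Finset.prod_empty, mul_one] at h1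
      exact h1
    have hG0 : GG (p + d) p u v f₁ f N k Θ x (f x) ∅ (fun _ _ => 1) 0 x ≠ 0 := by
      intro h0
      have h1 := hid x hfxS hxK (mem_chart_source _ _)
      rw [h0, zero_mul] at h1
      exact mul_ne_zero (pow_ne_zero _ (jac_chart_ne_zero (mem_chart_source _ _))) htr h1
    filter_upwards [e1, e2, e3, e4, hGG.continuousAt.eventually_ne hG0] with z a1 a2 a3 a4 a5
    rw [hΘ' z fun h => a2 (Or.inl h)]
    intro h0
    have h1 := hid z a1 a2 a3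
    rw [h0, mul_zero] at h1
    exact mul_ne_zero a5 (pow_ne_zero _ (jac_chart_ne_zero a3)) h1.symm

end Vale.Agent.P281.H389.TGF
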