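import Vale.Agent.P281.H389.TGB.Bound

/-!
# P281, project T-GF (helper389): the trace off a closed set `K` over whose complement `u` is étale
-/

open Set Filter Metric MeasureTheory Vale.Agent.P281 Vale.Agent.P281.H713 Vale.Agent.P272.K
open Vale.Agent.P281.MF Vale.Agent.P281.ISO Vale.Agent.P281.H713.TZ
open Vale.Agent.P281.H64.TU (Tame KTame TameOK RelFormT HasFormsT)
open Vale.Agent.P281.H64.Gen (IsSmallSet IsSmall2 HartogsStmt)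
open Vale.Agent.P281.H969.TG Vale.Agent.P281.H389.TG
open Vale.Agent.P281.H969.TGB (OffT)

open scoped Topology ContDiff Manifold ComplexConjugate ComplexOrder ENNReal NNReal

set_option linter.all false

noncomputable section

namespace Vale.Agent.P281.H389.TGF

variable {n p d : ℕ} {X₁ Y₁ X Y : Type} [TopologicalSpace X₁] [ChartedSpace (Cm n) X₁]
  [IsManifold 𝓘(ℂ, Cm n) ω X₁] [TopologicalSpace Y₁] [ChartedSpace (Cm p) Y₁]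
  [IsManifold 𝓘(ℂ, Cm p) ω Y₁] [TopologicalSpace X] [ChartedSpace (Cm n) X]
  [IsManifold 𝓘(ℂ, Cm n) ω X] [TopologicalSpace Y] [ChartedSpace (Cm p) Y]
  [IsManifold 𝓘(ℂ, Cm p) ω Y]

/-- the coefficient of the trace -/
def GG (n p : ℕ) {X₁ Y₁ X Y : Type} [TopologicalSpace X₁] [ChartedSpace (Cm n) X₁]
    [TopologicalSpace Y₁] [ChartedSpace (Cm p) Y₁] [TopologicalSpace X] [ChartedSpace (Cm n) X]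
    [TopologicalSpace Y] [ChartedSpace (Cm p) Y] (u : X₁ → X) (v : Y₁ → Y) (f₁ : X₁ → Y₁)
    (f : X → Y) (N k : ℕ) (Θ₁ : X₁ → ℂ) (x₀ : X) (y₀ : Y) (T : Finset (Set X))
    (e : Set X → X → ℂ) (κ : Set X → ℕ) (z : X) : ℂ :=
  (∏ D ∈ T, e D z ^ κ D) * ∑ᶠ w ∈ u ⁻¹' {z}, RR n p u v f₁ f N Θ₁ x₀ y₀ w ^ k

variable {u : X₁ → X} {v : Y₁ → Y} {f₁ : X₁ → Y₁} {f : X → Y} {N : ℕ} {Θ₁ : X₁ → ℂ}
  {S₁ : Set Y₁} {S : Set Y} {e₀ : Cm n ≃L[ℂ] (Cm p × Cm d)} {𝒜₁ : Set (Set X₁)}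
  {κ₁ : Set X₁ → ℕ} {T' : Tame (Cm d) X₁} {Δ₁ : Set X₁ → ℝ} {Δ : Set X → ℝ} {K : Set X}

/-- the transported form is holomorphic, where `u` is étale, off `Δ₁` -/
theorem RR_hol (hu : ∀ w, HolM (Cm n) (Cm n) u w) (hv : ∀ w, HolM (Cm p) (Cm p) v w)
    (hf₁ : ∀ w, HolM (Cm n) (Cm p) f₁ w) (hcomm : ∀ w, f (u w) = v (f₁ w))
    (hR : RelFormT T' f₁ S₁ e₀ N 𝒜₁ κ₁ Θ₁) (h𝒜 : ∀ D ∈ 𝒜₁, Δ₁ D ≠ 0)
    (hκ : ∀ D, (κ₁ D : ℝ) ≤ N * Δ₁ D) (hΔ₁ : J.IsSNC (Cm n) Δ₁)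
    {x₁ : X₁} {x₀ : X} {y₀ : Y} (hS : f₁ x₁ ∉ S₁) (hx : u x₁ ∈ (chartAt (Cm n) x₀).source)
    (hy : f (u x₁) ∈ (chartAt (Cm p) y₀).source)
    (hgood : ∀ᶠ w in 𝓝 x₁, (dM (Cm n) (Cm n) u w).det ≠ 0 ∧ ∀ D, Δ₁ D ≠ 0 → w ∉ D) :
    HolV (Cm n) (RR n p u v f₁ f N Θ₁ x₀ y₀) x₁ := by
  classical
  set T₁ := hΔ₁.1.toFinset with hT₁d
  have hT₁ : ∀ D, D ∈ T₁ ↔ Δ₁ D ≠ 0 := fun D => by simp [hT₁d]
  obtain ⟨e₁, he₁'⟩ := exists_eqs hΔ₁ x₁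
  have he₁ : ∀ D ∈ T₁, IsLocalEq (Cm n) D (e₁ D) x₁ := fun D hD => he₁' D ((hT₁ D).1 hD)
  obtain ⟨H₁, hH₁, hloc⟩ := loc hu hv hf₁ hcomm hR h𝒜 (kappa_ne hκ) hS hx hy T₁ hT₁ e₁ he₁
  have hA : HolV (Cm n) (ju (Cm n) u x₀ x₁) x₁ := ju_hol (mem_chart_source _ _) hx (hu x₁)
  have hB : HolV (Cm n) (fun w => ju (Cm p) v y₀ (f₁ x₁) (f₁ w)) x₁ := by
    have h1 : HolV (Cm p) (ju (Cm p) v y₀ (f₁ x₁)) (f₁ x₁) :=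
      ju_hol (mem_chart_source _ _) (by rw [← hcomm]; exact hy) (hv _)
    exact HolV.comp h1 (hf₁ x₁)
  have hE : HolV (Cm n) (fun w => ∏ D ∈ T₁, e₁ D w ^ κ₁ D) x₁ := by
    refine HolV.prod (g := fun D w => e₁ D w ^ κ₁ D) fun D hD => ?_
    obtain ⟨W, hW, hxW, h1, -, -⟩ := he₁ D hD
    exact HolV.pow (h1 x₁ hxW) _
  have hev : ∀ᶠ w in 𝓝 x₁, ju (Cm n) u x₀ x₁ w ^ N * ∏ D ∈ T₁, e₁ D w ^ κ₁ D ≠ 0 ∧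
      RR n p u v f₁ f N Θ₁ x₀ y₀ w = ju (Cm p) v y₀ (f₁ x₁) (f₁ w) ^ N * H₁ w /
        (ju (Cm n) u x₀ x₁ w ^ N * ∏ D ∈ T₁, e₁ D w ^ κ₁ D) := by
    filter_upwards [hloc, hgood] with w h1 h2
    obtain ⟨h3, h4, h5⟩ := h1 h2.2 h2.1
    have h6 : ju (Cm n) u x₀ x₁ w ^ N * ∏ D ∈ T₁, e₁ D w ^ κ₁ D ≠ 0 :=
      mul_ne_zero (pow_ne_zero _ h3) (Finset.prod_ne_zero_iff.2 fun D hD => pow_ne_zero _ (h4 D hD))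
    exact ⟨h6, by rw [eq_div_iff h6, h5]⟩
  have h7 : HolV (Cm n) (fun w => ju (Cm p) v y₀ (f₁ x₁) (f₁ w) ^ N * H₁ w /
        (ju (Cm n) u x₀ x₁ w ^ N * ∏ D ∈ T₁, e₁ D w ^ κ₁ D)) x₁ :=
    HolV.div (g := fun w => ju (Cm p) v y₀ (f₁ x₁) (f₁ w) ^ N * H₁ w)
      (h := fun w => ju (Cm n) u x₀ x₁ w ^ N * ∏ D ∈ T₁, e₁ D w ^ κ₁ D)
      (HolV.mul (HolV.pow hB N) hH₁) (HolV.mul (HolV.pow hA N) hE) hev.self_of_nhds.1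
  exact h7.congr (hev.mono fun w hw => hw.2)

/-- over the complement of `K` the preimages are finite -/
theorem fin_fib [T2Space X₁] [CompactSpace X₁] [T2Space X]
    (hu : ∀ w, HolM (Cm n) (Cm n) u w) {z : X}
    (hg : ∀ x₁, u x₁ = z → (dM (Cm n) (Cm n) u x₁).det ≠ 0) : (u ⁻¹' {z}).Finite := by
  obtain ⟨m', s, V, hV, hzV, hs1, hs2, hs3⟩ := H349.TG.sheet n X₁ X u (fun w => hu w) z
    fun x₁ hx₁ => (H308.Bir.bij_of_det_ne (hg x₁ hx₁)).1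
  refine (Set.finite_range fun j => s j z).subset ?_
  intro w hw
  exact (hs3 z hzV w hw).1

/-- the coefficient of the trace is holomorphic off `K` -/
theorem GG_hol [T2Space X₁] [CompactSpace X₁] [T2Space X]
    (hu : ∀ w, HolM (Cm n) (Cm n) u w) (hv : ∀ w, HolM (Cm p) (Cm p) v w)
    (hf₁ : ∀ w, HolM (Cm n) (Cm p) f₁ w) (hf : ∀ w, HolM (Cm n) (Cm p) f w)
    (hcomm : ∀ w, f (u w) = v (f₁ w))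
    (hR : RelFormT T' f₁ S₁ e₀ N 𝒜₁ κ₁ Θ₁) (h𝒜 : ∀ D ∈ 𝒜₁, Δ₁ D ≠ 0)
    (hκ₁ : ∀ D, (κ₁ D : ℝ) ≤ N * Δ₁ D) (hΔ₁ : J.IsSNC (Cm n) Δ₁)
    (hSc : IsClosed S) (hSS₁ : ∀ y₁, v y₁ ∉ S → y₁ ∉ S₁) (hKc : IsClosed K)
    (hK : ∀ x₁, f (u x₁) ∉ S → u x₁ ∉ K → (dM (Cm n) (Cm n) u x₁).det ≠ 0 ∧
      ∀ D, Δ₁ D ≠ 0 → x₁ ∉ D) {k : ℕ} {κ : Set X → ℕ}
    {x₀ z : X} {y₀ : Y} (hS : f z ∉ S) (hzK : z ∉ K)
    (hx : z ∈ (chartAt (Cm n) x₀).source) (hy : f z ∈ (chartAt (Cm p) y₀).source)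
    {T : Finset (Set X)} {e : Set X → X → ℂ} (he : ∀ D ∈ T, HolV (Cm n) (e D) z) :
    HolV (Cm n) (GG n p u v f₁ f N k Θ₁ x₀ y₀ T e κ) z := by
  classical
  have e1 : ∀ᶠ z' in 𝓝 z, f z' ∉ S := (hf z).continuousAt.eventually (hSc.isOpen_compl.mem_nhds hS)
  have e0 : ∀ᶠ z' in 𝓝 z, z' ∉ K := hKc.isOpen_compl.mem_nhds hzK
  have het : ∀ x₁, u x₁ = z → Function.Injective (mfderiv 𝓘(ℂ, Cm n) 𝓘(ℂ, Cm n) u x₁) := by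
    intro x₁ hx₁
    exact (H308.Bir.bij_of_det_ne (hK x₁ (by rw [hx₁]; exact hS) (by rw [hx₁]; exact hzK)).1).1
  obtain ⟨m', s, V, hV, hzV, hs1, hs2, hs3⟩ := H349.TG.sheet n X₁ X u (fun w => hu w) z het
  have hsum : ∀ z' ∈ V, ∑ᶠ w ∈ u ⁻¹' {z'}, RR n p u v f₁ f N Θ₁ x₀ y₀ w ^ k =
      ∑ j, RR n p u v f₁ f N Θ₁ x₀ y₀ (s j z') ^ k := by
    intro z' hz'
    refine finsum_fib (fun j => s j z') (hs2 z' hz') ?_ (fun w => RR n p u v f₁ f N Θ₁ x₀ y₀ w ^ k)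
    ext w
    constructor
    · intro hw
      exact (hs3 z' hz' w hw).1
    · rintro ⟨j, rfl⟩
      exact (hs1 j z' hz').2
  have h10 : HolV (Cm n) (fun z' => (∏ D ∈ T, e D z' ^ κ D) *
      ∑ j, RR n p u v f₁ f N Θ₁ x₀ y₀ (s j z') ^ k) z := by
    refine HolV.mul (HolV.prod (g := fun D z' => e D z' ^ κ D) fun D hD => HolV.pow (he D hD) _)
      (HolV.sum (g := fun j z' => RR n p u v f₁ f N Θ₁ x₀ y₀ (s j z') ^ k) fun j _ => ?_)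
    refine HolV.pow (g := fun z' => RR n p u v f₁ f N Θ₁ x₀ y₀ (s j z')) ?_ k
    have h11 : u (s j z) = z := (hs1 j z hzV).2
    refine HolV.comp (h := RR n p u v f₁ f N Θ₁ x₀ y₀) (f := s j) ?_ (hs1 j z hzV).1
    refine RR_hol hu hv hf₁ hcomm hR h𝒜 hκ₁ hΔ₁ (hSS₁ _ (by rw [← hcomm, h11]; exact hS))
      (by rw [h11]; exact hx) (by rw [h11]; exact hy) ?_
    have h12 : ∀ᶠ z' in 𝓝 (u (s j z)), f z' ∉ S ∧ z' ∉ K := by rw [h11]; exact e1.and e0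
    filter_upwards [(hu (s j z)).continuousAt.eventually h12] with w hw using hK w hw.1 hw.2
  refine h10.congr ?_
  filter_upwards [hV.mem_nhds hzV] with z' hz'
  unfold GG
  rw [hsum z' hz']

/-- the bound of the coefficient of the trace -/
theorem GG_bd {k m : ℕ} {κ : Set X → ℕ} (hκ : ∀ D, (κ D : ℝ) = k * (N * Δ D))
    {x₀ z : X} {y₀ : Y} {T TT : Finset (Set X)} {e e' : Set X → X → ℂ}
    (hTT : ∀ D, D ∈ TT ↔ Δ D ≠ 0) (hT : ∀ D, κ D ≠ 0 → D ∈ T) (he : ∀ D ∈ T, e' D = e D)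
    (hm : (u ⁻¹' {z}).encard ≤ m) {C : ℝ} (hC0 : 0 ≤ C)
    (hC : ∀ w, u w = z →
      ‖RR n p u v f₁ f N Θ₁ x₀ y₀ w‖ * (∏ D ∈ TT, ‖e' D z‖ ^ Δ D) ^ N ≤ C) :
    ‖GG n p u v f₁ f N k Θ₁ x₀ y₀ T e κ z‖ ≤ m * C ^ k := by
  classical
  have hκ0 : ∀ D, Δ D = 0 → κ D = 0 := by
    intro D h0
    have h1 := hκ D
    rw [h0, mul_zero, mul_zero] at h1
    exact_mod_cast h1
  have hfin : (u ⁻¹' {z}).Finite := Set.finite_of_encard_le_coe hm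
  have hcard : (hfin.toFinset.card : ℝ) ≤ m := by
    rw [hfin.encard_eq_coe_toFinset_card] at hm
    exact_mod_cast hm
  have hP : ‖∏ D ∈ T, e D z ^ κ D‖ = ((∏ D ∈ TT, ‖e' D z‖ ^ Δ D) ^ N) ^ k := by
    rw [norm_prod]
    have h5 : ∏ D ∈ T, ‖e D z ^ κ D‖ = ∏ D ∈ T ∩ TT, ‖e' D z‖ ^ κ D := by
      have h6 : ∏ D ∈ T, ‖e D z ^ κ D‖ = ∏ D ∈ T, ‖e' D z‖ ^ κ D :=
        Finset.prod_congr rfl fun D hD => by rw [norm_pow, he D hD]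
      rw [h6]
      symm
      refine Finset.prod_subset Finset.inter_subset_left fun D hD hD' => ?_
      have h7 : D ∉ TT := fun h => hD' (Finset.mem_inter.2 ⟨hD, h⟩)
      have h8 : Δ D = 0 := by
        by_contra h; exact h7 ((hTT D).2 h)
      rw [hκ0 D h8, pow_zero]
    have h6 : ∏ D ∈ T ∩ TT, ‖e' D z‖ ^ κ D = ∏ D ∈ TT, ‖e' D z‖ ^ κ D := by
      refine Finset.prod_subset Finset.inter_subset_right fun D hD hD' => ?_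
      have h7 : D ∉ T := fun h => hD' (Finset.mem_inter.2 ⟨h, hD⟩)
      have h8 : κ D = 0 := by
        by_contra h; exact h7 (hT D h)
      rw [h8, pow_zero]
    rw [h5, h6, ← Finset.prod_pow, ← Finset.prod_pow]
    refine Finset.prod_congr rfl fun D hD => ?_
    rw [← Real.rpow_natCast (‖e' D z‖) (κ D), ← pow_mul, ← Real.rpow_natCast (‖e' D z‖ ^ Δ D),
      ← Real.rpow_mul (norm_nonneg _), hκ D]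
    congr 1
    push_cast
    ring
  have h4 : GG n p u v f₁ f N k Θ₁ x₀ y₀ T e κ z = ∑ w ∈ hfin.toFinset,
      (∏ D ∈ T, e D z ^ κ D) * RR n p u v f₁ f N Θ₁ x₀ y₀ w ^ k := by
    rw [← Finset.mul_sum]
    unfold GG
    congr 1
    exact finsum_mem_eq_finite_toFinset_sum _ hfin
  rw [h4]
  refine (norm_sum_le _ _).trans ?_
  have h5 : ∀ w ∈ hfin.toFinset, ‖(∏ D ∈ T, e D z ^ κ D) *
      RR n p u v f₁ f N Θ₁ x₀ y₀ w ^ k‖ ≤ C ^ k := by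
    intro w hw
    have hw' : u w = z := by simpa using hw
    rw [norm_mul, hP, norm_pow, ← mul_pow]
    refine pow_le_pow_left₀ (by positivity) ?_ k
    rw [mul_comm]
    exact hC w hw'
  refine (Finset.sum_le_card_nsmul _ _ _ h5).trans ?_
  rw [nsmul_eq_mul]
  exact mul_le_mul_of_nonneg_right hcard (pow_nonneg hC0 _)

/-- the trace in terms of its coefficient -/
theorem GG_id {k : ℕ} {κ : Set X → ℕ} {x₀ z : X} {y₀ : Y} {T : Finset (Set X)}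
    {e : Set X → X → ℂ} (hx : z ∈ (chartAt (Cm n) x₀).source) (hfin : (u ⁻¹' {z}).Finite) :
    jac (Cm p) (chartAt (Cm p) y₀) (f z) ^ (k * N) * tr (Cm n) (Cm p) u v f₁ N k Θ₁ z *
      ∏ D ∈ T, e D z ^ κ D =
    GG n p u v f₁ f N k Θ₁ x₀ y₀ T e κ z * jac (Cm n) (chartAt (Cm n) x₀) z ^ (k * N) := by
  classical
  have hjψ : jac (Cm n) (chartAt (Cm n) x₀) z ≠ 0 := jac_chart_ne_zero hx
  unfold GG tr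
  rw [finsum_mem_eq_finite_toFinset_sum _ hfin, finsum_mem_eq_finite_toFinset_sum _ hfin]
  rw [Finset.mul_sum, Finset.sum_mul, Finset.mul_sum, Finset.sum_mul]
  refine Finset.sum_congr rfl fun w hw => ?_
  have hw' : u w = z := by simpa using hw
  unfold RR
  rw [hw', mul_pow, ← pow_mul, mul_comm N k, div_pow]
  have h6 : jac (Cm n) (chartAt (Cm n) x₀) z ^ (k * N) ≠ 0 := pow_ne_zero _ hjψ
  field_simp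

variable {S₀ : Set Y} {w₁ : Chart n X₁ → Cm n → Matrix (Fin n) (Fin n) ℂ}

/-- the bound at one point, without `LogLe` -/
theorem bound_pt [T2Space X₁] [CompactSpace X₁] [T2Space X]
    (hu : ContMDiff 𝓘(ℂ, Cm n) 𝓘(ℂ, Cm n) ω u) (hv : ContMDiff 𝓘(ℂ, Cm p) 𝓘(ℂ, Cm p) ω v)
    (hf₁ : ContMDiff 𝓘(ℂ, Cm n) 𝓘(ℂ, Cm p) ω f₁) (hf : ContMDiff 𝓘(ℂ, Cm n) 𝓘(ℂ, Cm p) ω f)
    (hcomm : ∀ w, f (u w) = v (f₁ w))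
    (het : ∀ y₁, v y₁ ∉ S₀ → Function.Injective (mfderiv 𝓘(ℂ, Cm p) 𝓘(ℂ, Cm p) v y₁))
    (h𝒜 : ∀ D ∈ 𝒜₁, Δ₁ D ≠ 0) (hSS : S₀ ⊆ S) (hSS₁ : ∀ y₁, v y₁ ∉ S → y₁ ∉ S₁)
    (hK : ∀ x₁, f (u x₁) ∉ S → u x₁ ∉ K → (dM (Cm n) (Cm n) u x₁).det ≠ 0 ∧
      ∀ D, Δ₁ D ≠ 0 → x₁ ∉ D) {r K' C₁ : ℝ} (hr : 0 < r)
    (hC₁ : ∀ (v₀ : Cm d) (Q : Cm d → X₁),
      (∀ v ∈ ball v₀ r, ContMDiffAt 𝓘(ℂ, Cm d) 𝓘(ℂ, Cm n) ω Q v) → InjOn Q (ball v₀ r) →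
      (∀ v ∈ ball v₀ r, f₁ (Q v) = f₁ (Q v₀)) → f₁ (Q v₀) ∉ S₁ →
      (∀ v ∈ ball v₀ r, ∀ D ∈ 𝒜₁, Q v ∉ D) → KTame w₁ K' Q v₀ r → ∀ P : Cm n →L[ℂ] Cm d,
      P.comp (mfderiv 𝓘(ℂ, Cm d) 𝓘(ℂ, Cm n) Q v₀ : Cm d →L[ℂ] Cm n) =
        ContinuousLinearMap.id ℂ (Cm d) →
      ‖Θ₁ (Q v₀)‖ ≤ C₁ * ‖JP e₀ (dM (Cm n) (Cm p) f₁ (Q v₀)) P ^ N‖)
    {v₀ : Cm d} {Q : Cm d → X} (hQ : ∀ v ∈ ball v₀ r, ContMDiffAt 𝓘(ℂ, Cm d) 𝓘(ℂ, Cm n) ω Q v)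
    (hinj : InjOn Q (ball v₀ r)) (hfib : ∀ v ∈ ball v₀ r, f (Q v) = f (Q v₀))
    (hS : f (Q v₀) ∉ S) (hQK : ∀ v ∈ ball v₀ r, Q v ∉ K)
    (htame : UTame u w₁ K' Q v₀ r) {P : Cm n →L[ℂ] Cm d}
    (hP : P.comp (mfderiv 𝓘(ℂ, Cm d) 𝓘(ℂ, Cm n) Q v₀ : Cm d →L[ℂ] Cm n) =
      ContinuousLinearMap.id ℂ (Cm d)) {x₁ : X₁} (hx₁ : u x₁ = Q v₀) :
    ‖trn (Cm n) (Cm p) u v f₁ N Θ₁ x₁‖ ≤ C₁ * ‖JP e₀ (dM (Cm n) (Cm p) f (Q v₀)) P ^ N‖ := by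
  have hv₀ : v₀ ∈ ball v₀ r := mem_ball_self hr
  have hgood : ∀ w ∈ ball v₀ r, ∀ x₂, u x₂ = Q w → v (f₁ x₂) ∉ S ∧
      (dM (Cm n) (Cm n) u x₂).det ≠ 0 ∧ ∀ D, Δ₁ D ≠ 0 → x₂ ∉ D := by
    intro w hw x₂ hx₂
    have h1 : f (u x₂) ∉ S := by rw [hx₂, hfib w hw]; exact hS
    exact ⟨by rw [← hcomm]; exact h1, hK x₂ h1 (by rw [hx₂]; exact hQK w hw)⟩
  obtain ⟨Q₁, hQ₁0, hQ₁⟩ := H349.TG.liftQ n d X₁ X u hu Q v₀ r hr (fun w hw => ⟨hQ w hw,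
    fun x₂ hx₂ => (H308.Bir.bij_of_det_ne (hgood w hw x₂ hx₂).2.1).1⟩) x₁ hx₁
  have hinj₁ : InjOn Q₁ (ball v₀ r) := by
    intro a ha b hb hab
    refine hinj ha hb ?_
    rw [← (hQ₁ a ha).2, ← (hQ₁ b hb).2, hab]
  have hconst : ∀ w ∈ ball v₀ r, f₁ (Q₁ w) = f₁ (Q₁ v₀) := by
    refine const_lift (y := fun w => f₁ (Q₁ w)) hv hr (fun w hw => ?_) (fun w hw => ?_)
      (fun w hw => ?_)
    · exact ContinuousAt.comp (g := f₁) hf₁.continuous.continuousAt (hQ₁ w hw).1.continuousAt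
    · show v (f₁ (Q₁ w)) = v (f₁ (Q₁ v₀))
      rw [← hcomm, ← hcomm, (hQ₁ w hw).2, (hQ₁ v₀ hv₀).2, hfib w hw]
    · exact het _ fun h => (hgood w hw _ (hQ₁ w hw).2).1 (hSS h)
  obtain ⟨g1, g2, g3⟩ := hgood v₀ hv₀ x₁ hx₁
  set Au : Cm n →L[ℂ] Cm n := dM (Cm n) (Cm n) u x₁ with hAu
  have hPQ : (P.comp Au).comp (mfderiv 𝓘(ℂ, Cm d) 𝓘(ℂ, Cm n) Q₁ v₀ : Cm d →L[ℂ] Cm n) =
      ContinuousLinearMap.id ℂ (Cm d) := by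
    have h1 : (fun w => u (Q₁ w)) =ᶠ[𝓝 v₀] Q := by
      filter_upwards [isOpen_ball.mem_nhds hv₀] with w hw using (hQ₁ w hw).2
    have h2 : mfderiv 𝓘(ℂ, Cm d) 𝓘(ℂ, Cm n) (u ∘ Q₁) v₀ =
        (mfderiv 𝓘(ℂ, Cm n) 𝓘(ℂ, Cm n) u (Q₁ v₀)).comp
          (mfderiv 𝓘(ℂ, Cm d) 𝓘(ℂ, Cm n) Q₁ v₀) :=
      mfderiv_comp v₀ ((hu (Q₁ v₀)).mdifferentiableAt (by simp))
        ((hQ₁ v₀ hv₀).1.mdifferentiableAt (by simp))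
    have h3 : mfderiv 𝓘(ℂ, Cm d) 𝓘(ℂ, Cm n) (u ∘ Q₁) v₀ =
        mfderiv 𝓘(ℂ, Cm d) 𝓘(ℂ, Cm n) Q v₀ := h1.mfderiv_eq
    rw [h3] at h2
    have h4 : (mfderiv 𝓘(ℂ, Cm n) 𝓘(ℂ, Cm n) u (Q₁ v₀) : Cm n →L[ℂ] Cm n) = Au := by
      rw [hAu, hQ₁0]; rfl
    have h5 : (mfderiv 𝓘(ℂ, Cm d) 𝓘(ℂ, Cm n) Q v₀ : Cm d →L[ℂ] Cm n) =
        Au.comp (mfderiv 𝓘(ℂ, Cm d) 𝓘(ℂ, Cm n) Q₁ v₀ : Cm d →L[ℂ] Cm n) := by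
      rw [← h4]; exact h2
    refine ContinuousLinearMap.ext fun ξ => ?_
    have h6 := congrArg (fun L : Cm d →L[ℂ] Cm d => L ξ) hP
    have h7 := congrArg (fun L : Cm d →L[ℂ] Cm n => P (L ξ)) h5
    exact h7.symm.trans h6
  have hb := hC₁ v₀ Q₁ (fun w hw => (hQ₁ w hw).1) hinj₁ hconst
    (hSS₁ _ (hgood v₀ hv₀ _ (hQ₁ v₀ hv₀).2).1)
    (fun w hw D hD => (hgood w hw _ (hQ₁ w hw).2).2.2 D (h𝒜 D hD)) (htame Q₁ hQ₁) (P.comp Au) hPQ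
  rw [hQ₁0] at hb
  set Av : Cm p →L[ℂ] Cm p := dM (Cm p) (Cm p) v (f₁ x₁) with hAv
  have hchain : Av.comp (dM (Cm n) (Cm p) f₁ x₁) = (dM (Cm n) (Cm p) f (Q v₀)).comp Au := by
    have h1 : mfderiv 𝓘(ℂ, Cm n) 𝓘(ℂ, Cm p) (f ∘ u) x₁ =
        (mfderiv 𝓘(ℂ, Cm n) 𝓘(ℂ, Cm p) f (u x₁)).comp (mfderiv 𝓘(ℂ, Cm n) 𝓘(ℂ, Cm n) u x₁) :=
      mfderiv_comp x₁ ((hf (u x₁)).mdifferentiableAt (by simp))
        ((hu x₁).mdifferentiableAt (by simp))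
    have h2 : mfderiv 𝓘(ℂ, Cm n) 𝓘(ℂ, Cm p) (v ∘ f₁) x₁ =
        (mfderiv 𝓘(ℂ, Cm p) 𝓘(ℂ, Cm p) v (f₁ x₁)).comp
          (mfderiv 𝓘(ℂ, Cm n) 𝓘(ℂ, Cm p) f₁ x₁) :=
      mfderiv_comp x₁ ((hv (f₁ x₁)).mdifferentiableAt (by simp))
        ((hf₁ x₁).mdifferentiableAt (by simp))
    have h3 : f ∘ u = v ∘ f₁ := funext hcomm
    rw [h3] at h1
    rw [← hx₁]
    exact h2.symm.trans h1
  have hJ := JP_tr e₀ P hchain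
  have hdu : 0 < ‖Au.det‖ := norm_pos_iff.2 g2
  unfold trn
  rw [← hAv, ← hAu, norm_mul, norm_pow, norm_div, norm_pow]
  have hJ' : ‖Av.det‖ * ‖JP e₀ (dM (Cm n) (Cm p) f₁ x₁) (P.comp Au)‖ =
      ‖JP e₀ (dM (Cm n) (Cm p) f (Q v₀)) P‖ * ‖Au.det‖ := by
    rw [← norm_mul, ← norm_mul, hJ]
  rw [norm_pow] at hb
  have h6 : ‖JP e₀ (dM (Cm n) (Cm p) f₁ x₁) (P.comp Au)‖ * (‖Av.det‖ / ‖Au.det‖) =
      ‖JP e₀ (dM (Cm n) (Cm p) f (Q v₀)) P‖ := by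
    rw [← mul_div_assoc, mul_comm, hJ', mul_div_assoc, div_self hdu.ne', mul_one]
  calc ‖Θ₁ x₁‖ * (‖Av.det‖ / ‖Au.det‖) ^ N
      ≤ C₁ * ‖JP e₀ (dM (Cm n) (Cm p) f₁ x₁) (P.comp Au)‖ ^ N * (‖Av.det‖ / ‖Au.det‖) ^ N :=
        mul_le_mul_of_nonneg_right hb (by positivity)
    _ = C₁ * (‖JP e₀ (dM (Cm n) (Cm p) f₁ x₁) (P.comp Au)‖ * (‖Av.det‖ / ‖Au.det‖)) ^ N := by
        rw [mul_pow]; ring
    _ = _ := by rw [h6]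

/-- **the bound of the trace**, off `K`; `m` bounds the number of sheets -/
theorem bound_tr [T2Space X₁] [CompactSpace X₁] [T2Space X]
    (hu : ContMDiff 𝓘(ℂ, Cm n) 𝓘(ℂ, Cm n) ω u) (hv : ContMDiff 𝓘(ℂ, Cm p) 𝓘(ℂ, Cm p) ω v)
    (hf₁ : ContMDiff 𝓘(ℂ, Cm n) 𝓘(ℂ, Cm p) ω f₁) (hf : ContMDiff 𝓘(ℂ, Cm n) 𝓘(ℂ, Cm p) ω f)
    (hcomm : ∀ w, f (u w) = v (f₁ w))
    (het : ∀ y₁, v y₁ ∉ S₀ → Function.Injective (mfderiv 𝓘(ℂ, Cm p) 𝓘(ℂ, Cm p) v y₁))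
    (h𝒜 : ∀ D ∈ 𝒜₁, Δ₁ D ≠ 0) (hSS : S₀ ⊆ S) (hSS₁ : ∀ y₁, v y₁ ∉ S → y₁ ∉ S₁)
    (hK : ∀ x₁, f (u x₁) ∉ S → u x₁ ∉ K → (dM (Cm n) (Cm n) u x₁).det ≠ 0 ∧
      ∀ D, Δ₁ D ≠ 0 → x₁ ∉ D)
    (hR : RelFormT (KTame w₁) f₁ S₁ e₀ N 𝒜₁ κ₁ Θ₁) {k m : ℕ}
    (hm : ∀ x, f x ∉ S → x ∉ K → (u ⁻¹' {x}).encard ≤ m) (r K' : ℝ) (hr : 0 < r)
    (hK' : 0 < K') : ∃ C : ℝ, ∀ (v₀ : Cm d) (Q : Cm d → X),
      (∀ v ∈ ball v₀ r, ContMDiffAt 𝓘(ℂ, Cm d) 𝓘(ℂ, Cm n) ω Q v) → InjOn Q (ball v₀ r) →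
      (∀ v ∈ ball v₀ r, f (Q v) = f (Q v₀)) → f (Q v₀) ∉ S →
      (∀ v ∈ ball v₀ r, Q v ∉ K) → UTame u w₁ K' Q v₀ r → ∀ P : Cm n →L[ℂ] Cm d,
      P.comp (mfderiv 𝓘(ℂ, Cm d) 𝓘(ℂ, Cm n) Q v₀ : Cm d →L[ℂ] Cm n) =
        ContinuousLinearMap.id ℂ (Cm d) →
      ‖tr (Cm n) (Cm p) u v f₁ N k Θ₁ (Q v₀)‖ ≤
        C * ‖JP e₀ (dM (Cm n) (Cm p) f (Q v₀)) P ^ (k * N)‖ := by
  obtain ⟨C₁, hC₁⟩ := hR.bound r K' hr hK'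
  refine ⟨m * (max C₁ 0) ^ k, ?_⟩
  intro v₀ Q hQ hinj hfib hS hQK htame P hP
  have hK₀ : Q v₀ ∉ K := hQK v₀ (mem_ball_self hr)
  have hfin : (u ⁻¹' {Q v₀}).Finite := Set.finite_of_encard_le_coe (hm _ hS hK₀)
  have hcard : (hfin.toFinset.card : ℝ) ≤ m := by
    have h4 := hm _ hS hK₀
    rw [hfin.encard_eq_coe_toFinset_card] at h4
    exact_mod_cast h4
  have hpt : ∀ x₁ ∈ hfin.toFinset, ‖trn (Cm n) (Cm p) u v f₁ N Θ₁ x₁ ^ k‖ ≤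
      (max C₁ 0) ^ k * ‖JP e₀ (dM (Cm n) (Cm p) f (Q v₀)) P ^ (k * N)‖ := by
    intro x₁ hx₁
    have hx₁' : u x₁ = Q v₀ := by simpa using hx₁
    have h1 := bound_pt hu hv hf₁ hf hcomm het h𝒜 hSS hSS₁ hK hr hC₁ hQ hinj hfib hS hQK
      htame hP hx₁'
    rw [norm_pow, mul_comm k N, pow_mul, norm_pow (_ ^ N), ← mul_pow]
    refine pow_le_pow_left₀ (norm_nonneg _) (h1.trans ?_) k
    exact mul_le_mul_of_nonneg_right (le_max_left _ _) (norm_nonneg _)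
  unfold tr
  rw [finsum_mem_eq_finite_toFinset_sum _ hfin]
  refine (norm_sum_le _ _).trans ((Finset.sum_le_card_nsmul _ _ _ hpt).trans ?_)
  rw [nsmul_eq_mul, mul_assoc]
  exact mul_le_mul_of_nonneg_right hcard (by positivity)

end Vale.Agent.P281.H389.TGF
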