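import Vale.Agent.P281.H389.TGF.Gen
import Vale.Agent.P281.H603.TGF.Spec

/-!
# P281, project T-GF (helper389), block F3: the traces
-/

open Set Filter Metric MeasureTheory Vale.Agent.P281 Vale.Agent.P281.H713 Vale.Agent.P272.K
open Vale.Agent.P281.MF Vale.Agent.P281.ISO Vale.Agent.P281.H713.TZ
open Vale.Agent.P281.H64.TU (Tame KTame TameOK RelFormT HasFormsT)
open Vale.Agent.P281.H64.Gen (IsSmallSet IsSmall2 HartogsStmt)
open Vale.Agent.P281.H969.TG Vale.Agent.P281.H389.TG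
open Vale.Agent.P281.H969.TGB (OffT)
open Vale.Agent.P281.H603.TGF (ExtKStmt TraceFStmt)

open scoped Topology ContDiff Manifold ComplexConjugate ComplexOrder ENNReal NNReal

set_option linter.all false

noncomputable section

namespace Vale.Agent.P281.H389.TGF

/-- **F3** -/
theorem traceF (hE : ExtKStmt) : TraceFStmt := by
  intro p d N k m X₁ Y₁ X Y _ _ _ _ _ _ _ _ _ _ _ _ _ _ _ _ _ _ f₁ Δ₁ f Δ u v S₀ S S₁ B 𝒢 w₁
    e₀ 𝒜₁ κ₁ Θ₁ 𝒟 hd hk hsq hf₁ hf hΔ₁ hΔ hSc hSS hSS₁ hsub hconn hG1 hB1 hm hD hBdd hR h𝒜 hκ₁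
  classical
  have hu' : ∀ w, HolM (Cm (p + d)) (Cm (p + d)) u w := fun w => hsq.holu w
  have hv' : ∀ w, HolM (Cm p) (Cm p) v w := fun w => hsq.holv w
  have hf₁' : ∀ w, HolM (Cm (p + d)) (Cm p) f₁ w := fun w => hf₁ w
  have hf' : ∀ w, HolM (Cm (p + d)) (Cm p) f w := fun w => hf w
  have hBc : IsClosed B := hsq.small2.1
  have hKc : IsClosed (B ∪ ⋃₀ 𝒢) := by
    refine hBc.union ?_
    rw [sUnion_eq_biUnion]
    exact hsq.fin.isClosed_biUnion fun D hD => (hsq.prime D hD).1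
  have hK : ∀ x₁, f (u x₁) ∉ S → u x₁ ∉ B ∪ ⋃₀ 𝒢 →
      (dM (Cm (p + d)) (Cm (p + d)) u x₁).det ≠ 0 ∧ ∀ D, Δ₁ D ≠ 0 → x₁ ∉ D := by
    intro x₁ h1 h2
    refine ⟨det_ne_of_inj (hsq.et x₁ (fun h => h1 (hSS h)) h2), hsq.vert₁ x₁ fun h => h1 (hSS h)⟩
  have hmemK : ∀ z : X, (∀ D ∈ insert B 𝒢, z ∉ D) → z ∉ B ∪ ⋃₀ 𝒢 := by
    rintro z hz (h1 | ⟨D, hD, h1⟩)
    · exact hz B (mem_insert _ _) h1
    · exact hz D (mem_insert_of_mem _ hD) h1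
  refine ⟨?_, ?_⟩
  · intro x₀ x y₀ hS hx hy T e hT he
    set G : X → ℂ := GG (p + d) p u v f₁ f N k Θ₁ x₀ y₀ T e 0 with hGd
    have e1 : ∀ᶠ z in 𝓝 x, f z ∉ S :=
      (hf' x).continuousAt.eventually (hSc.isOpen_compl.mem_nhds hS)
    have e3 : ∀ᶠ z in 𝓝 x, z ∈ (chartAt (Cm (p + d)) x₀).source :=
      (chartAt (Cm (p + d)) x₀).open_source.mem_nhds hx
    have e4 : ∀ᶠ z in 𝓝 x, f z ∈ (chartAt (Cm p) y₀).source :=
      (hf' x).continuousAt.eventually ((chartAt (Cm p) y₀).open_source.mem_nhds hy)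
    have e5 : ∀ᶠ z in 𝓝 x, ∀ D ∈ T, HolV (Cm (p + d)) (e D) z := by
      rw [Filter.eventually_all_finset]
      intro D hD
      obtain ⟨W, hW, hxW, h1, -, -⟩ := he D hD
      filter_upwards [hW.mem_nhds hxW] with w hw using h1 w hw
    have h1 : ∀ᶠ z in 𝓝 x, z ∉ B ∪ ⋃₀ 𝒢 → HolV (Cm (p + d)) G z := by
      filter_upwards [e1, e3, e4, e5] with z a1 a3 a4 a5 hz
      exact GG_hol hu' hv' hf₁' hf' hsq.comm hR h𝒜 hκ₁ hΔ₁ hSc hSS₁ hKc hK a1 hz a3 a4 a5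
    have h2 : ∀ᶠ x' in 𝓝 x, f x' ∈ 𝒟 → ∃ C : ℝ, ∀ᶠ z in 𝓝 x', f z = f x' →
        z ∉ B ∪ ⋃₀ 𝒢 → ‖G z‖ ≤ C := by
      filter_upwards [e1, e3, e4] with x' a1 a3 a4 hx'
      obtain ⟨C, hC⟩ := hBdd (f x') hx' a1 N 𝒜₁ κ₁ Θ₁ hR h𝒜 hκ₁ x' x₀ y₀ rfl a3 a4
      refine ⟨m * (max C 0) ^ k, ?_⟩
      filter_upwards [hC] with z hz b1 b2
      refine GG_bd (Δ := fun _ => (0 : ℝ)) (TT := ∅) (e' := e) (κ := 0) (fun D => by simp)
        (fun D => by simp) (fun D hD => absurd rfl hD) (fun D _ => rfl)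
        (hm z (by rw [b1]; exact a1) b2) (le_max_right _ _) fun w hw => ?_
      rw [Finset.prod_empty, one_pow, mul_one]
      exact (hz b1 b2 w hw).trans (le_max_left _ _)
    obtain ⟨H, hH, hHe⟩ := hE p d X Y f S B 𝒢 G x 𝒟 hd hf hSc hsub hconn hBc hsq.an hsq.fin
      hsq.prime hG1 hB1 hS h1 hD h2
    refine ⟨H, hH, ?_⟩
    filter_upwards [e1, e3, hHe] with z a1 a3 a5 hz _
    have hzK := hmemK z hz
    rw [← a5 hzK]
    exact GG_id a3 (Set.finite_of_encard_le_coe (hm z a1 hzK))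
  · intro r K hr hK'
    obtain ⟨C, hC⟩ := bound_tr (K := B ∪ ⋃₀ 𝒢) (S := S) (S₀ := S₀) (k := k) hsq.holu hsq.holv hf₁
      hf hsq.comm hsq.etale h𝒜 hSS hSS₁ hK hR hm r K hr hK'
    refine ⟨C, ?_⟩
    intro v₀ Q hQ hinj hfib hS hoff htame P hP
    exact hC v₀ Q hQ hinj hfib hS (fun w hw => hmemK _ (hoff w hw)) htame.2 P hP

end Vale.Agent.P281.H389.TGF
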